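import Vale.Agent.P063.Main
import Vale.Agent.P063.Width

/-!
The Friedgut-Kalai conjecture on threshold widths, for graphs and for hypergraphs.
-/

namespace Vale.Agent.Results.P063.ThresholdWidth

open Vale.Agent.P063

theorem result :
    (∀ ε : ℝ, 0 < ε → ε < 1 / 2 → ∃ C : ℝ, ∀ n : ℕ, 2 ≤ n → ∀ P : Set (Finset (Edge n 2)),
      IsSymm P → IsIncreasing P → P.Nonempty → P ≠ Set.univ →
        width ε P ≤ C / Real.log n ^ 2) ∧
    (∀ r : ℕ, 2 ≤ r → ∀ ε : ℝ, 0 < ε → ε < 1 / 2 → ∃ C : ℝ, ∀ n : ℕ, r ≤ n →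
      ∀ P : Set (Finset (Edge n r)), IsSymm P → IsIncreasing P → P.Nonempty → P ≠ Set.univ →
        width ε P ≤ C * Real.log n ^ (-((r : ℝ) / ((r : ℝ) - 1)))) := by
  refine ⟨fun ε h0 h1 => ?_, fun r hr ε h0 h1 => ?_⟩
  · obtain ⟨C, hC⟩ := widthBound_of_lower le_rfl (lower le_rfl) ε h0 h1
    refine ⟨C, fun n hn P hs hi hne hu => ?_⟩
    have h := hC n hn P hs hi hne hu
    norm_num at h
    exact h
  · obtain ⟨C, hC⟩ := widthBound_of_lower hr (lower hr) ε h0 h1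
    refine ⟨C, fun n hn P hs hi hne hu => ?_⟩
    have h := hC n hn P hs hi hne hu
    rwa [Real.rpow_neg (Real.log_natCast_nonneg n), ← div_eq_mul_inv]

end Vale.Agent.Results.P063.ThresholdWidth
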